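import Mathlib
import Vale.Agent.P052.Inst

namespace Vale.Agent.Results.P052.Main

/-- Borsuk's conjecture in dimension `d`: every bounded subset `Y` of Euclidean `d`-space with
positive diameter is the union of `d + 1` sets, each of diameter strictly smaller than that
of `Y`. -/
def BorsukConjecture (d : ℕ) : Prop :=
  ∀ Y : Set (EuclideanSpace ℝ (Fin d)), Bornology.IsBounded Y → 0 < Metric.diam Y →
    ∃ F : Fin (d + 1) → Set (EuclideanSpace ℝ (Fin d)),
      (⋃ i, F i) = Y ∧ ∀ i, Metric.diam (F i) < Metric.diam Y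

/-- Borsuk's conjecture fails in every dimension `d ≥ 63`. -/
theorem result : ∀ d : ℕ, 63 ≤ d → ¬ BorsukConjecture d := by
  intro d hd h
  have key : ∃ Y : Set (EuclideanSpace ℝ (Fin d)), Bornology.IsBounded Y ∧
      0 < Metric.diam Y ∧ ∀ F : Fin (d + 1) → Set (EuclideanSpace ℝ (Fin d)), (⋃ i, F i) = Y →
          ∃ i, ¬ Metric.diam (F i) < Metric.diam Y := by
    rcases Nat.eq_or_lt_of_le hd with h63 | h64
    · rw [← h63]
      exact Vale.Agent.P052.case63
    · obtain ⟨k, rfl⟩ : ∃ k, d = 64 + k := ⟨d - 64, by omega⟩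
      exact Vale.Agent.P052.case64 k
  obtain ⟨Y, hb, hpos, hF⟩ := key
  obtain ⟨F, hU, hlt⟩ := h Y hb hpos
  obtain ⟨i, hi⟩ := hF F hU
  exact hi (hlt i)

end Vale.Agent.Results.P052.Main
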